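import Vale.Agent.P121.H414.Push
import Mathlib.Analysis.Calculus.BumpFunction.FiniteDimension
import Mathlib.Analysis.Calculus.BumpFunction.Normed

set_option linter.all false

open MeasureTheory Set Filter Topology Metric
open scoped RealInnerProductSpace ENNReal NNReal ContDiff

namespace Vale.Agent.P121.H414

section Final

variable {E : Type*} [NormedAddCommGroup E] [InnerProductSpace ℝ E] [FiniteDimensional ℝ E]
  [MeasurableSpace E] [BorelSpace E] {N : ℕ}
variable {R : E ≃ₗᵢ[ℝ] E} {s : Fin N → E} {o b l : Fin N} {W : E → ℝ}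

lemma exists_bump {δ : ℝ} (hδ : 0 < δ) : ∃ φ : E → ℝ, ContDiff ℝ ∞ φ ∧ HasCompactSupport φ ∧
    tsupport φ ⊆ ball (0 : E) δ ∧ (∀ x, 0 ≤ φ x) ∧ ∫⁻ x, ENNReal.ofReal (φ x) = 1 := by
  let B : ContDiffBump (0 : E) := ⟨δ / 4, δ / 2, by positivity, by linarith⟩
  refine ⟨B.normed volume, B.contDiff_normed, B.hasCompactSupport_normed, ?_,
    B.nonneg_normed, ?_⟩
  · rw [B.tsupport_normed_eq]
    exact closedBall_subset_ball (by show δ / 2 < δ; linarith)
  · rw [← ofReal_integral_eq_lintegral_ofReal B.integrable_normed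
      (Eventually.of_forall B.nonneg_normed), B.integral_normed, ENNReal.ofReal_one]

lemma compact_sum (gg : Fin 2 → Fin N → E → ℝ) (hgc : ∀ j i, HasCompactSupport (gg j i))
    (c : ℝ) : HasCompactSupport (fun x => c * ∑ j, ∑ i, gg j i x) := by
  have hK : IsCompact (⋃ j, ⋃ i, tsupport (gg j i)) :=
    isCompact_iUnion fun j => isCompact_iUnion fun i => hgc j i
  refine HasCompactSupport.intro hK fun x hx => ?_
  have h0 : ∀ j i, gg j i x = 0 := by
    intro j i
    refine image_eq_zero_of_notMem_tsupport fun h => hx ?_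
    exact mem_iUnion.2 ⟨j, mem_iUnion.2 ⟨i, h⟩⟩
  simp only [h0, Finset.sum_const_zero, mul_zero]

lemma lint_sum (gg : Fin 2 → Fin N → E → ℝ) (hgm : ∀ j i, Measurable (gg j i))
    (hg0 : ∀ j i x, 0 ≤ gg j i x) (t : Set E) [NeZero N] :
    ∫⁻ x in t, ENNReal.ofReal ((2 * N : ℝ)⁻¹ * ∑ j, ∑ i, gg j i x) =
      (2 * N : ℝ≥0∞)⁻¹ * ∑ j, ∑ i, ∫⁻ x in t, ENNReal.ofReal (gg j i x) := by
  have h1 : ∀ x, ENNReal.ofReal ((2 * N : ℝ)⁻¹ * ∑ j, ∑ i, gg j i x) =
      (2 * N : ℝ≥0∞)⁻¹ * ∑ j, ∑ i, ENNReal.ofReal (gg j i x) := by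
    intro x
    have hN : (0 : ℝ) < N := by exact_mod_cast Nat.pos_of_ne_zero (NeZero.ne N)
    rw [ENNReal.ofReal_mul (by positivity),
      ENNReal.ofReal_sum_of_nonneg (fun j _ => Finset.sum_nonneg fun i _ => hg0 j i x)]
    congr 1
    · rw [ENNReal.ofReal_inv_of_pos (by positivity), ENNReal.ofReal_mul (by norm_num),
        ENNReal.ofReal_natCast]
      norm_num
    · refine Finset.sum_congr rfl fun j _ => ?_
      rw [ENNReal.ofReal_sum_of_nonneg (fun i _ => hg0 j i x)]
  simp only [h1]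
  have hm : ∀ j i, Measurable (fun x => ENNReal.ofReal (gg j i x)) :=
    fun j i => (hgm j i).ennreal_ofReal
  rw [lintegral_const_mul _ (Finset.measurable_sum _ fun j _ => Finset.measurable_sum _
    fun i _ => hm j i)]
  congr 1
  rw [lintegral_finset_sum _ (fun j _ => Finset.measurable_sum _ fun i _ => hm j i)]
  refine Finset.sum_congr rfl fun j _ => ?_
  rw [lintegral_finset_sum _ (fun i _ => hm j i)]

/-- existence of the data -/
lemma exists_packS (hS : Sites R s o b l W) :
    ∃ (p r η δ ε Λ : ℝ) (x : E → Fin N → E) (g : E → ℝ), 0 < δ ∧ 0 < Λ ∧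
      Pack R s o b l W p r η δ ε x g ∧ Measurable g ∧
      ContinuousOn x (closedBall (0 : E) δ) ∧
      (∀ a ∈ closedBall (0 : E) δ, ∀ a' ∈ closedBall (0 : E) δ, ∀ i,
        ‖a - a'‖ ≤ Λ * ‖x a i - x a' i‖) ∧
      (∀ a ∈ ball (0 : E) δ, ContDiffAt ℝ ω x a) := by
  classical
  obtain ⟨ρA, hρA, PA, hPA, KA, hKA, hanti⟩ := exists_antilip hS.inj hS.ol
  obtain ⟨ε, hε, hε1, hbad⟩ := exists_eps hS
  obtain ⟨r₀, hr₀, hsep⟩ := exists_sep R s
  obtain ⟨η₁, hη₁, hclose⟩ := cRN_close hS.inj (show 0 < ε / 2 by positivity)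
  -- choice of η
  obtain ⟨η, hη, hηη₁, hηε, hηr, hηN, hηA⟩ : ∃ η : ℝ, 0 < η ∧ η ≤ η₁ ∧ η ≤ ε ∧ η ≤ r₀ / 4 ∧
      η ≤ ε / (4 * (N + 1) * (‖force s o‖ + 1)) ∧ η ≤ ρA := by
    have hle : ∀ c : ℝ, 0 < c → ∀ᶠ ρ in 𝓝[>] (0 : ℝ), ρ ≤ c := fun c hc =>
      nhdsWithin_le_nhds (eventually_le_nhds hc)
    have : ∀ᶠ η in 𝓝[>] (0 : ℝ), 0 < η ∧ η ≤ η₁ ∧ η ≤ ε ∧ η ≤ r₀ / 4 ∧
        η ≤ ε / (4 * (N + 1) * (‖force s o‖ + 1)) ∧ η ≤ ρA := by
      filter_upwards [self_mem_nhdsWithin, hle η₁ hη₁, hle ε hε, hle (r₀ / 4) (by positivity),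
        hle (ε / (4 * (N + 1) * (‖force s o‖ + 1))) (by (clear * - hε; positivity)),
        hle ρA hρA] with η a b c d e f
        using ⟨a, b, c, d, e, f⟩
    exact this.exists
  have hηN' : (N + 1) * ((‖force s o‖ + 1) * η) ≤ ε / 4 := by
    calc (N + 1) * ((‖force s o‖ + 1) * η)
        ≤ (N + 1) * ((‖force s o‖ + 1) * (ε / (4 * (N + 1) * (‖force s o‖ + 1)))) := by (clear * - hηN; gcongr)
      _ = ε / 4 := by field_simp
  have hho : hvec s o o = force s o := by unfold hvec; rw [if_pos rfl]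
  obtain ⟨P₀, hP₀, hloc⟩ := local_packageN hS.inj hS.ol (hvec s o) hho hη
  set r : ℝ := r₀ / 2 with hr
  have hr0 : 0 < r := by positivity
  set p : ℝ := max (max P₀ PA) (2 * (N / r ^ 3) + 1) with hp
  have hp0 : 0 < p := lt_of_lt_of_le hP₀ ((le_max_left _ _).trans (le_max_left _ _))
  have hpA : PA ≤ p := (le_max_right P₀ PA).trans (le_max_left _ _)
  have hpr : N / r ^ 3 < p / 2 := by
    have := le_max_right (max P₀ PA) (2 * (N / r ^ 3) + 1)
    linarith only [this]
  obtain ⟨δ, hδ, Λ, hΛ, x, hx, hlip, hcont⟩ := hloc p ((le_max_left _ _).trans (le_max_left _ _))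
  rw [hS.so] at hx hlip hcont
  have hrsep : ∀ a ∈ closedBall (0 : E) δ, ∀ i j, i ≠ j → r ≤ ‖x a i - x a j‖ := by
    intro a ha i j hij
    have h1 := hsep (0, i) (0, j) (fun h => hij (hS.inj h))
    have h2 := (hx a ha).2.1 i
    have h3 := (hx a ha).2.1 j
    have h4 : dist (site2 R s (0, i)) (site2 R s (0, j)) = ‖s i - s j‖ := dist_eq_norm _ _
    have h5 : ‖s i - s j‖ ≤ ‖x a i - s i‖ + ‖x a i - x a j‖ + ‖x a j - s j‖ := by
      have e : s i - s j = -(x a i - s i) + (x a i - x a j) + (x a j - s j) := by abel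
      rw [e]
      refine (norm_add_le _ _).trans ?_
      gcongr
      refine (norm_add_le _ _).trans ?_
      rw [norm_neg]
    linarith only [hηr, hr, h1, h2, h3, h4, h5]
  -- the implicit potential
  set D := closedBall (0 : E) δ with hD
  have hDm : MeasurableSet D := measurableSet_closedBall
  have hstd : StandardBorelSpace D := hDm.standardBorel
  have hemb : MeasurableEmbedding (fun a : D => x a l) := by
    refine Measurable.measurableEmbedding ?_ ?_
    · have h1 : Continuous (fun a : D => x a) := hcont.domRestrict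
      exact ((continuous_apply l).comp h1).measurable
    · intro a a' haa
      have := hlip a a.2 a' a'.2 l
      simp only at haa
      rw [haa, sub_self, norm_zero, mul_zero] at this
      exact Subtype.ext (sub_eq_zero.1 (norm_le_zero_iff.1 this))
  have hqdm : ∀ i, Measurable (qd s o W p i) := by
    intro i
    unfold qd quad
    fun_prop
  have hulm : Measurable (fun a : D => ul s o l W p (x a)) := by
    have h1 : Measurable (fun a : D => x a) := hcont.domRestrict.measurable
    have h2 : ∀ i, Measurable (fun a : D => x a i) := fun i => (measurable_pi_apply i).comp h1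
    unfold ul cRN
    refine Measurable.sub ?_ ?_
    · refine measurable_const.mul (Finset.measurable_sum _ fun i _ =>
        Finset.measurable_sum _ fun j _ => ?_)
      exact ((h2 i).sub (h2 j)).norm.inv
    · exact Finset.measurable_sum _ fun i _ => (hqdm i).comp (h2 i)
  obtain ⟨g, hgm, hgeq⟩ := hemb.exists_measurable_extend hulm (fun _ => inferInstance)
  have hg : ∀ a ∈ D, g (x a l) = ul s o l W p (x a) := fun a ha => congrFun hgeq ⟨a, ha⟩
  have hqclose : ∀ a ∈ D, ∀ i, i ≠ l → |qd s o W p i (x a i) - W (s i)| ≤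
      (‖force s o‖ + 1) * η := by
    intro a ha i hi
    exact qd_close p hp0.le i _ ((hx a ha).2.1 i) ((hx a ha).2.2.2 i hi)
  have hsmall : (‖force s o‖ + 1) * η < ε := by
    have h1 : 0 ≤ (‖force s o‖ + 1) * η := by (clear * - hη; positivity)
    have h2 : (0 : ℝ) ≤ N := Nat.cast_nonneg _
    nlinarith only [hε, hηN']
  have hxinj : ∀ a ∈ closedBall (0 : E) δ, Function.Injective (x a) := by
    intro a ha i i' hii
    by_contra hne
    have h1 := hrsep a ha i i' hne
    rw [hii, sub_self, norm_zero] at h1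
    linarith only [h1, hr0]
  have hxball : ∀ a ∈ closedBall (0 : E) δ, x a ∈ ball s ρA := by
    intro a ha
    rw [mem_ball, dist_pi_lt_iff hρA]
    intro i
    rw [dist_eq_norm]
    exact ((hx a ha).2.1 i).trans_le hηA
  have hsmooth := smooth_family (hanti p hpA) hS.ol (h := hvec s o) hcont hxinj hxball
    (fun a ha => (hx a ha).2.2.1) (fun a ha => (hx a ha).1)
  refine ⟨p, r, η, δ, ε, Λ, x, g, hδ, hΛ, ?_, hgm, hcont, hlip, hsmooth⟩
  refine ⟨hS, hr0, hpr, sepAt_of hsep (by linarith only [hη, hηr]), hηε, hε1, hbad, fun a ha => (hx a ha).1,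
    fun a ha => (hx a ha).2.1, fun a ha => (hx a ha).2.2.1, hrsep, hg, ?_⟩
  intro a ha i
  by_cases hi : i = l
  · subst hi
    rw [fpot, if_pos rfl, hg a ha]
    have h1 := hclose (x a) (fun i => ((hx a ha).2.1 i).trans_le hηη₁)
    have h2 : W (s i) = cRN s - ∑ k ∈ {i}ᶜ, W (s k) := by
      have := hS.W_sum
      rw [← Finset.sum_compl_add_sum {i}, Finset.sum_singleton] at this
      linarith only [this]
    have h3 : ul s o i W p (x a) - W (s i) = (cRN (x a) - cRN s) -
        ∑ k ∈ {i}ᶜ, (qd s o W p k (x a k) - W (s k)) := by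
      rw [h2, ul, Finset.sum_sub_distrib]
      ring
    have h4 : |∑ k ∈ {i}ᶜ, (qd s o W p k (x a k) - W (s k))| ≤ ε / 4 := by
      calc |∑ k ∈ {i}ᶜ, (qd s o W p k (x a k) - W (s k))|
          ≤ ∑ k ∈ {i}ᶜ, |qd s o W p k (x a k) - W (s k)| := Finset.abs_sum_le_sum_abs _ _
        _ ≤ ∑ _k ∈ ({i}ᶜ : Finset (Fin N)), (‖force s o‖ + 1) * η := by
            refine Finset.sum_le_sum fun k hk => hqclose a ha k ?_
            simpa using hk
        _ ≤ ∑ _k : Fin N, (‖force s o‖ + 1) * η :=
            Finset.sum_le_univ_sum_of_nonneg fun _ => by (clear * - hη; positivity)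
        _ = N * ((‖force s o‖ + 1) * η) := by
            rw [Finset.sum_const, Finset.card_univ, Fintype.card_fin, nsmul_eq_mul]
        _ ≤ (N + 1) * ((‖force s o‖ + 1) * η) := by
            gcongr
            linarith only []
        _ ≤ ε / 4 := hηN'
    rw [h3]
    rw [abs_le] at h4
    rw [abs_lt] at h1 ⊢
    constructor <;> linarith only [h1, h4]
  · rw [fpot, if_neg hi]
    exact (hqclose a ha i hi).trans_lt hsmall

/-- The construction from the discrete data. -/
theorem main_of_sitesS [NeZero N] (hS : Sites R s 0 b l W) :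
    ∃ f : E → ℝ, ContDiff ℝ ∞ f ∧ HasCompactSupport f ∧ (∀ x, 0 ≤ f x) ∧
      ∃ μ : Measure E, μ = (volume : Measure E).withDensity (fun x => ENNReal.ofReal (f x)) ∧
      IsProbabilityMeasure μ ∧ kantorovichN N μ ≠ (⊤ : ℝ≥0∞) ∧
      ∀ T : Fin N → E → E, IsMongeN μ T → mongeCostN μ T ≠ kantorovichN N μ := by
  classical
  obtain ⟨p, r, η, δ, ε, Λ, x, g, hδ, hΛ, hP, hgm, hcont, hlip, hsmooth⟩ := exists_packS hS
  set D := closedBall (0 : E) δ with hD
  have hDm : MeasurableSet D := measurableSet_closedBall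
  -- smooth bump on D
  obtain ⟨φ, hφs, hφc, hφt, hφ0, hφ1⟩ := exists_bump (E := E) hδ
  let ν : Measure E := (volume : Measure E).withDensity (fun x => ENNReal.ofReal (φ x))
  have hν : IsProbabilityMeasure ν := by
    refine ⟨?_⟩
    simp only [ν]
    rw [withDensity_apply _ MeasurableSet.univ, Measure.restrict_univ]
    exact hφ1
  have hνD : ν Dᶜ = 0 := by
    simp only [ν]
    rw [withDensity_apply _ hDm.compl]
    rw [setLIntegral_congr_fun hDm.compl (g := fun _ => 0), lintegral_zero]
    intro x hx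
    have h1 : x ∉ tsupport φ := fun h => hx (ball_subset_closedBall (hφt h))
    simp only
    rw [image_eq_zero_of_notMem_tsupport h1, ENNReal.ofReal_zero]
  -- the maps
  let X : Fin N → E → E := fun i => D.piecewise (fun a => x a i) (fun _ => 0)
  have hXe : ∀ i, ∀ a ∈ D, X i a = x a i := fun i a ha => Set.piecewise_eq_of_mem _ _ _ ha
  have hXm : ∀ i, Measurable (X i) := fun i =>
    ((continuous_apply i).comp_continuousOn hcont).measurable_piecewise continuousOn_const hDm
  let F : Fin 2 → Fin N → E → E := fun j i a => act R j (X i (act R j a))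
  have hFm : ∀ j i, Measurable (F j i) := fun j i =>
    (continuous_act j).measurable.comp ((hXm i).comp (continuous_act j).measurable)
  have hactD : ∀ j, ∀ a ∈ D, act R j a ∈ D := by
    intro j a ha
    rw [hD, mem_closedBall, dist_zero_right, norm_act, ← dist_zero_right]
    exact ha
  have hFe : ∀ j i, ∀ a ∈ D, F j i a = act R j (x (act R j a) i) := by
    intro j i a ha
    show act R j (X i (act R j a)) = _
    rw [hXe i _ (hactD j a ha)]
  have hFlip : ∀ j i, ∀ a ∈ D, ∀ a' ∈ D, ‖a - a'‖ ≤ Λ * ‖F j i a - F j i a'‖ := by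
    intro j i a ha a' ha'
    rw [hFe j i a ha, hFe j i a' ha', ← act_sub, norm_act]
    have := hlip _ (hactD j a ha) _ (hactD j a' ha') i
    rwa [← act_sub, norm_act] at this
  have hFinj : ∀ j i, InjOn (F j i) D := by
    intro j i a ha a' ha' haa
    have := hFlip j i a ha a' ha'
    rw [haa, sub_self, norm_zero, mul_zero] at this
    exact sub_eq_zero.1 (norm_le_zero_iff.1 this)
  have hF0 : ∀ j, ∀ a ∈ D, F j 0 a = a := by
    intro j a ha
    rw [hFe j 0 a ha, hP.xo _ (hactD j a ha), act_act hS.RR]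
  have hFdist : ∀ j i, ∀ a ∈ D, dist (F j i a) (site2 R s (j, i)) < η := by
    intro j i a ha
    rw [hFe j i a ha]
    exact hP.dist_site (j, i) (hactD j a ha)
  have hsepD : ∀ j j' i, (j', i) ≠ (j, b) → Disjoint (F j b '' D) (F j' i '' D) := by
    intro j j' i hne
    rw [Set.disjoint_left]
    rintro _ ⟨a, ha, rfl⟩ ⟨a', ha', haa⟩
    have h1 := hFdist j b a ha
    have h2 := hFdist j' i a' ha'
    rw [haa] at h2
    have h3 := hP.sep _ _ _ h2 h1
    have h4 := hS.eq_of_site2 (Or.inl rfl) h3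
    exact hne (Prod.ext h4.1 h4.2)
  -- the potential
  set M : ℝ := 1 + ∑ i, |W (s i)| with hM
  set V : E → ℝ := VV R s (fpot s 0 l W p g) η with hV
  have hVm : Measurable V := by
    refine measurable_VV (fun i => ?_) η
    unfold fpot
    split_ifs
    · exact hgm
    · unfold qd quad
      fun_prop
  let U : E → ℝ≥0∞ := fun y => ENNReal.ofReal (min (V y + M) (2 * M))
  have hUm : Measurable U := ((hVm.add_const M).min measurable_const).ennreal_ofReal
  have hUe : ∀ j i, ∀ a ∈ D, U (act R j (x a i)) = ENNReal.ofReal (V (act R j (x a i)) + M) := by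
    intro j i a ha
    have := (hP.VV_bounds (j, i) ha).2
    show ENNReal.ofReal (min (V (act R j (x a i)) + M) (2 * M)) = _
    rw [min_eq_left this]
  -- representation of points of the union of the clusters
  have hrep : ∀ z : Fin N → E, (∀ k, z k ∈ ⋃ j, ⋃ i, F j i '' D) →
      ∃ (τ : Fin N → Fin 2 × Fin N) (c : Fin N → E), (∀ k, c k ∈ D) ∧
        ∀ k, z k = act R (τ k).1 (x (c k) (τ k).2) := by
    intro z hz
    have h1 : ∀ k, ∃ t : Fin 2 × Fin N, ∃ c ∈ D, z k = act R t.1 (x c t.2) := by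
      intro k
      obtain ⟨j, i, a, ha, haz⟩ := by simpa only [mem_iUnion, mem_image] using hz k
      refine ⟨(j, i), act R j a, hactD j a ha, ?_⟩
      rw [← haz, hFe j i a ha]
    choose τ c hc hzc using h1
    exact ⟨τ, c, hc, hzc⟩
  have hUsum : ∀ (τ : Fin N → Fin 2 × Fin N) (c : Fin N → E), (∀ k, c k ∈ D) →
      ∀ z : Fin N → E, (∀ k, z k = act R (τ k).1 (x (c k) (τ k).2)) →
      ∑ k, U (z k) = ∑ k, ENNReal.ofReal (V (z k) + M) := by
    intro τ c hc z hz
    refine Finset.sum_congr rfl fun k _ => ?_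
    rw [hz k]
    exact hUe _ _ _ (hc k)
  have main := abstractN ν D hDm hνD F hFm hFinj hF0 b hsepD U hUm (ENNReal.ofReal (2 * M))
    ENNReal.ofReal_ne_top (fun y => ENNReal.ofReal_le_ofReal (min_le_right _ _))
    (ENNReal.ofReal (N * M)) ENNReal.ofReal_ne_top ?_ ?_ ?_
  · -- the smooth density
    have hactS : ∀ j, ContDiff ℝ ω (act R j) := by
      intro j
      unfold act
      split_ifs
      · exact contDiff_id
      · exact R.toContinuousLinearEquiv.contDiff
    have hactB : ∀ j, ∀ a ∈ ball (0 : E) δ, act R j a ∈ ball (0 : E) δ := by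
      intro j a ha
      rw [mem_ball, dist_zero_right, norm_act, ← dist_zero_right]
      exact ha
    have hFS : ∀ j i, ∀ a ∈ ball (0 : E) δ, ContDiffAt ℝ ω (F j i) a := by
      intro j i a ha
      have h1 : ContDiffAt ℝ ω (fun a => x a i) (act R j a) := by
        have := hsmooth _ (hactB j a ha)
        rw [contDiffAt_pi] at this
        exact this i
      have h2 : ContDiffAt ℝ ω (fun a => act R j (x (act R j a) i)) a :=
        ContDiffAt.comp (g := act R j) a (hactS j).contDiffAt
          (ContDiffAt.comp (g := fun a => x a i) a h1 (hactS j).contDiffAt)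
      refine h2.congr_of_eventuallyEq ?_
      filter_upwards [isOpen_ball.mem_nhds ha] with a' ha'
      exact hFe j i a' (ball_subset_closedBall ha')
    have hFd : ∀ j i, ∀ a ∈ ball (0 : E) δ, ∀ v, fderiv ℝ (F j i) a v = 0 → v = 0 := by
      intro j i a ha v hv
      have h1 := fderiv_inj (f := F j i) (isOpen_ball (x := (0 : E)) (ε := δ)) (K := Λ)
        (fun y hy z hz => hFlip j i y (ball_subset_closedBall hy) z (ball_subset_closedBall hz)) ha
        ((hFS j i a ha).differentiableAt (by simp)).hasFDerivAt v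
      rw [hv, norm_zero, mul_zero] at h1
      exact norm_le_zero_iff.1 h1
    have hpush : ∀ j i, ∃ g : E → ℝ, ContDiff ℝ ∞ g ∧ HasCompactSupport g ∧ (∀ x, 0 ≤ g x) ∧
        ∀ t, MeasurableSet t → ν (F j i ⁻¹' t) = ∫⁻ x in t, ENNReal.ofReal (g x) :=
      fun j i => smooth_push volume (hFm j i) isOpen_ball
        (fun a ha => (hFS j i a ha).of_le le_top)
        ((hFinj j i).mono ball_subset_closedBall) (hFd j i) hφs hφc hφt hφ0
    choose gg hgs hgc hg0 hgt using hpush
    refine ⟨fun x => (2 * N : ℝ)⁻¹ * ∑ j, ∑ i, gg j i x, ?_, ?_, ?_, measN ν F, ?_, main.1,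
      main.2.1, main.2.2⟩
    · exact contDiff_const.mul (ContDiff.sum fun j _ => ContDiff.sum fun i _ => hgs j i)
    · exact compact_sum gg hgc _
    · intro x
      exact mul_nonneg (by positivity)
        (Finset.sum_nonneg fun j _ => Finset.sum_nonneg fun i _ => hg0 j i x)
    · ext t ht
      rw [measN_apply ν hFm ht, withDensity_apply _ ht]
      simp only [hgt _ _ t ht]
      exact (lint_sum gg (fun j i => (hgs j i).continuous.measurable) hg0 t).symm
  · intro z hz
    obtain ⟨τ, c, hc, hzc⟩ := hrep z hz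
    rw [hUsum τ c hc z hzc]
    exact (hP.main_ineq τ c hc z hzc).1
  · intro j a ha
    have hz : ∀ k, F j k a = act R ((fun k => (j, k) : Fin N → Fin 2 × Fin N) k).1
        (x ((fun _ => act R j a : Fin N → E) k) ((fun k => (j, k) : Fin N → Fin 2 × Fin N) k).2) :=
      fun k => hFe j k a ha
    have haD := hactD j a ha
    rw [hUsum _ _ (fun _ => haD) _ hz]
    have hrs := hP.rsep _ haD
    have hxinj : Function.Injective (x (act R j a)) := by
      intro i i' hii
      by_contra hne
      have h1 := hrs i i' hne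
      rw [hii, sub_self, norm_zero] at h1
      have := hP.hr
      linarith only [h1, this]
    have g3 := (good_branch (s := s) (o := 0) (W := W) hP.hr hP.hpr hrs hxinj rfl
      (hP.crit _ haD) (hP.hg _ haD)).2.2
    have hFa : (fun i => F j i a) = fun i => act R j (x (act R j a) i) :=
      funext fun i => hFe j i a ha
    have hFainj : Function.Injective (fun i => F j i a) := by
      rw [hFa]
      intro i i' hii
      exact hxinj (act_inj (R := R) j hii)
    rw [coulombN_eq_ofReal hFainj, hFa, cRN_act,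
      ← ENNReal.ofReal_add (cRN_nonneg _) (by (clear * -; positivity))]
    have hVe : ∀ k, V (F j k a) = fpot s 0 l W p g k (x (act R j a) k) := by
      intro k
      rw [hFe j k a ha]
      exact hP.VV_pt (j, k) haD
    have hnn : ∀ k, 0 ≤ V (F j k a) + M := by
      intro k
      rw [hFe j k a ha]
      exact (hP.VV_bounds (j, k) haD).1
    rw [← ENNReal.ofReal_sum_of_nonneg (fun k _ => hnn k), Finset.sum_add_distrib,
      Finset.sum_const, Finset.card_univ, Fintype.card_fin, nsmul_eq_mul, g3]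
    simp only [hVe]
  · intro z hz hz0 heq
    obtain ⟨τ, c, hc, hzc⟩ := hrep z hz
    rw [hUsum τ c hc z hzc] at heq
    obtain ⟨j, k, hk⟩ := (hP.main_ineq τ c hc z hzc).2 heq hz0
    exact ⟨j, k, by rw [hk, hFe j b _ hz0]⟩

end Final

end Vale.Agent.P121.H414
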