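import Vale.Agent.P121.H414.Main

set_option linter.all false

open MeasureTheory Set Filter Topology Metric
open scoped RealInnerProductSpace ENNReal NNReal

namespace Vale.Agent.P121.H414

section Three

variable {E : Type*} [NormedAddCommGroup E] [MeasurableSpace E]

/-- triples as functions on `Fin 3` -/
def triEquiv : (E × E × E) ≃ᵐ (Fin 3 → E) where
  toFun p := ![p.1, p.2.1, p.2.2]
  invFun x := (x 0, x 1, x 2)
  left_inv p := rfl
  right_inv x := by
    funext i
    fin_cases i <;> rfl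
  measurable_toFun := by
    refine measurable_pi_iff.2 fun i => ?_
    fin_cases i
    · exact measurable_fst
    · exact measurable_fst.comp measurable_snd
    · exact measurable_snd.comp measurable_snd
  measurable_invFun := by
    exact (measurable_pi_apply 0).prodMk ((measurable_pi_apply 1).prodMk (measurable_pi_apply 2))

lemma coulombN_three (x : Fin 3 → E) : coulombN x = coulombCost (x 0, x 1, x 2) := by
  have h0 : Finset.Ioi (0 : Fin 3) = {1, 2} := by decide
  have h1 : Finset.Ioi (1 : Fin 3) = {2} := by decide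
  have h2 : Finset.Ioi (2 : Fin 3) = ∅ := by decide
  unfold coulombN coulombCost
  rw [Fin.sum_univ_three, h0, h1, h2, Finset.sum_pair (by decide), Finset.sum_singleton,
    Finset.sum_empty, add_zero]

lemma kantorovichN_three_le (μ : Measure E) : kantorovichN 3 μ ≤ kantorovich μ := by
  unfold kantorovich
  refine le_iInf₂ fun π hπ => ?_
  unfold kantorovichN
  refine iInf₂_le_of_le (π.map triEquiv) ?_ ?_
  · intro i
    rw [Measure.map_map (measurable_pi_apply i) triEquiv.measurable]
    obtain ⟨h1, h2, h3⟩ := hπ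
    fin_cases i
    · exact h1
    · exact h2
    · exact h3
  · rw [lintegral_map_equiv]
    refine le_of_eq (lintegral_congr fun p => ?_)
    rw [coulombN_three]
    rfl

lemma kantorovich_le_three (μ : Measure E) : kantorovich μ ≤ kantorovichN 3 μ := by
  unfold kantorovichN
  refine le_iInf₂ fun π hπ => ?_
  unfold kantorovich
  refine iInf₂_le_of_le (π.map triEquiv.symm) ⟨?_, ?_, ?_⟩ ?_
  · rw [Measure.map_map measurable_fst triEquiv.symm.measurable]
    exact hπ 0
  · rw [Measure.map_map (show Measurable (fun p : E × E × E => p.2.1) from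
      measurable_fst.comp measurable_snd) triEquiv.symm.measurable]
    exact hπ 1
  · rw [Measure.map_map (show Measurable (fun p : E × E × E => p.2.2) from
      measurable_snd.comp measurable_snd) triEquiv.symm.measurable]
    exact hπ 2
  · rw [lintegral_map_equiv]
    refine le_of_eq (lintegral_congr fun x => ?_)
    rw [coulombN_three]
    rfl

lemma kantorovich_three (μ : Measure E) : kantorovich μ = kantorovichN 3 μ :=
  le_antisymm (kantorovich_le_three μ) (kantorovichN_three_le μ)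

lemma hasOptimal_three (μ : Measure E) (h : HasOptimalMongePlan μ) :
    HasOptimalMongePlanN 3 μ := by
  obtain ⟨T₂, T₃, ⟨h1, h2, h3, h4⟩, hc⟩ := h
  refine ⟨![id, T₂, T₃], ⟨?_, ?_⟩, ?_⟩
  · intro i hi
    have : i = 0 := Fin.ext hi
    rw [this]
    rfl
  · intro i
    fin_cases i
    · exact ⟨measurable_id, Measure.map_id⟩
    · exact ⟨h1, h3⟩
    · exact ⟨h2, h4⟩
  · rw [← kantorovich_three, ← hc]
    unfold mongeCostN mongeCost
    refine lintegral_congr fun x => ?_
    rw [coulombN_three]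
    rfl

end Three

theorem main_generalS {E : Type*} [NormedAddCommGroup E] [InnerProductSpace ℝ E]
    [FiniteDimensional ℝ E] [MeasurableSpace E] [BorelSpace E] {N : ℕ} (hN : 3 ≤ N)
    {e₁ e₂ : E} (h1 : ‖e₁‖ = 1) (h2 : ‖e₂‖ = 1) (h12 : ⟪e₁, e₂⟫ = 0) :
    ∃ f : E → ℝ, ContDiff ℝ ((⊤ : ℕ∞) : WithTop ℕ∞) f ∧ HasCompactSupport f ∧ (∀ x, 0 ≤ f x) ∧
      ∃ μ : Measure E, μ = (volume : Measure E).withDensity (fun x => ENNReal.ofReal (f x)) ∧
      IsProbabilityMeasure μ ∧ kantorovichN N μ ≠ ∞ ∧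
      ∀ T : Fin N → E → E, IsMongeN μ T → mongeCostN μ T ≠ kantorovichN N μ := by
  haveI : NeZero N := ⟨by omega⟩
  obtain ⟨R, W, hS⟩ := exists_sites hN h1 h2 h12
  have h0 : (⟨0, by omega⟩ : Fin N) = 0 := Fin.ext (by simp)
  rw [h0] at hS
  exact main_of_sitesS hS

theorem final_smooth (N d : ℕ) (hN : 3 ≤ N) (hd : 2 ≤ d) :
    ∃ (μ : Measure (EuclideanSpace ℝ (Fin d))) (f : EuclideanSpace ℝ (Fin d) → ℝ),
      ContDiff ℝ ((⊤ : ℕ∞) : WithTop ℕ∞) f ∧ HasCompactSupport f ∧ (∀ x, 0 ≤ f x) ∧
      μ = volume.withDensity (fun x => ENNReal.ofReal (f x)) ∧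
      IsProbabilityMeasure μ ∧ μ ≪ volume ∧
      (∃ C : ℝ≥0, μ ≤ C • volume) ∧
      (∃ S : Set (EuclideanSpace ℝ (Fin d)), IsCompact S ∧ μ Sᶜ = 0) ∧
      kantorovichN N μ < ∞ ∧ ¬ HasOptimalMongePlanN N μ := by
  obtain ⟨f, hf, hfc, hf0, μ, hμ, h1, h4, h5⟩ :=
    main_generalS (E := EuclideanSpace ℝ (Fin d)) hN
      (e₁ := EuclideanSpace.single (⟨0, by omega⟩ : Fin d) (1 : ℝ))
      (e₂ := EuclideanSpace.single (⟨1, by omega⟩ : Fin d) (1 : ℝ)) (by simp) (by simp)
      (by rw [EuclideanSpace.inner_single_left]; simp)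
  refine ⟨μ, f, hf, hfc, hf0, hμ, h1, ?_, ?_, ⟨tsupport f, hfc, ?_⟩, h4.lt_top, ?_⟩
  · rw [hμ]
    exact withDensity_absolutelyContinuous _ _
  · obtain ⟨C, hC⟩ := hfc.exists_bound_of_continuous hf.continuous
    refine ⟨Real.toNNReal C, ?_⟩
    rw [hμ, Measure.le_iff]
    intro t ht
    rw [withDensity_apply _ ht, Measure.smul_apply, ENNReal.smul_def, smul_eq_mul]
    calc ∫⁻ x in t, ENNReal.ofReal (f x) ≤ ∫⁻ _ in t, ((Real.toNNReal C : ℝ≥0) : ℝ≥0∞) := by
          refine lintegral_mono fun x => ?_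
          exact ENNReal.ofReal_le_ofReal ((le_abs_self _).trans (hC x))
      _ = _ := by rw [setLIntegral_const]
  · rw [hμ, withDensity_apply _ (isClosed_tsupport f).isOpen_compl.measurableSet,
      setLIntegral_congr_fun (isClosed_tsupport f).isOpen_compl.measurableSet (g := fun _ => 0),
      lintegral_zero]
    intro x hx
    simp only
    rw [image_eq_zero_of_notMem_tsupport hx, ENNReal.ofReal_zero]
  · rintro ⟨T, hT, hcost⟩
    exact h5 T hT hcost

end Vale.Agent.P121.H414
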