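import Vale.Agent.P121.H414.Smooth
import Mathlib.MeasureTheory.Function.Jacobian
import Mathlib.Analysis.Calculus.Deriv.Abs

set_option linter.all false

open Set Filter Topology Metric MeasureTheory
open scoped RealInnerProductSpace NNReal ContDiff ENNReal

namespace Vale.Agent.P121.H414

section Det

variable {E : Type*} [NormedAddCommGroup E] [NormedSpace ℝ E] [FiniteDimensional ℝ E]

lemma contDiff_det {n : WithTop ℕ∞} : ContDiff ℝ n (fun A : E →L[ℝ] E => A.det) := by
  classical
  let b := Module.finBasis ℝ E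
  have h1 : (fun A : E →L[ℝ] E => A.det) =
      fun A => ∑ σ : Equiv.Perm (Fin (Module.finrank ℝ E)),
        ((Equiv.Perm.sign σ : ℤ) : ℝ) * ∏ i, (b.coord (σ i)).toContinuousLinearMap (A (b i)) := by
    funext A
    rw [ContinuousLinearMap.det, ← LinearMap.det_toMatrix b, Matrix.det_apply']
    refine Finset.sum_congr rfl fun σ _ => ?_
    congr 1
    refine Finset.prod_congr rfl fun i _ => ?_
    rw [LinearMap.toMatrix_apply]
    rfl
  rw [h1]
  refine ContDiff.sum fun σ _ => contDiff_const.mul (contDiff_prod fun i _ => ?_)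
  exact (ContinuousLinearMap.contDiff _).comp (contDiff_id.clm_apply contDiff_const)

end Det

section Push

variable {E : Type*} [NormedAddCommGroup E] [NormedSpace ℝ E] [FiniteDimensional ℝ E]
  [MeasurableSpace E] [BorelSpace E]

/-- push forward of a smooth compactly supported density by a smooth map which is an embedding
near the support -/
theorem smooth_push (μ : Measure E) [μ.IsAddHaarMeasure] {F : E → E} (hFm : Measurable F)
    {U : Set E} (hU : IsOpen U) (hF : ∀ x ∈ U, ContDiffAt ℝ ∞ F x) (hinj : InjOn F U)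
    (hF' : ∀ x ∈ U, ∀ v, fderiv ℝ F x v = 0 → v = 0) {φ : E → ℝ} (hφ : ContDiff ℝ ∞ φ)
    (hφc : HasCompactSupport φ) (hφU : tsupport φ ⊆ U) (hφ0 : ∀ x, 0 ≤ φ x) :
    ∃ g : E → ℝ, ContDiff ℝ ∞ g ∧ HasCompactSupport g ∧ (∀ x, 0 ≤ g x) ∧
      ∀ t, MeasurableSet t →
        μ.withDensity (fun x => ENNReal.ofReal (φ x)) (F ⁻¹' t) =
          ∫⁻ x in t, ENNReal.ofReal (g x) ∂μ := by
  classical
  set J : E → E := Function.invFunOn F U with hJ
  have hJl : ∀ x ∈ U, J (F x) = x := fun x hx => hinj.leftInvOn_invFunOn hx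
  set D : E → ℝ := fun x => (fderiv ℝ F x).det with hD
  have hDne : ∀ x ∈ U, D x ≠ 0 := by
    intro x hx h0
    have h1 : LinearMap.det ((fderiv ℝ F x : E →L[ℝ] E) : E →ₗ[ℝ] E) = 0 := h0
    have h2 := LinearMap.bot_lt_ker_of_det_eq_zero h1
    have h3 : LinearMap.ker ((fderiv ℝ F x : E →L[ℝ] E) : E →ₗ[ℝ] E) = ⊥ := by
      rw [LinearMap.ker_eq_bot']
      exact hF' x hx
    rw [h3] at h2
    exact lt_irrefl _ h2
  have hDs : ∀ x ∈ U, ContDiffAt ℝ ∞ D x := by
    intro x hx
    have h1 : ContDiffAt ℝ ∞ (fderiv ℝ F) x :=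
      (hF x hx).fderiv_right (m := ∞) (by exact le_rfl)
    exact ContDiffAt.comp (g := fun A : E →L[ℝ] E => A.det) (f := fderiv ℝ F) x
      contDiff_det.contDiffAt h1
  -- the local inverses
  have hloc : ∀ x ∈ U, F '' U ∈ 𝓝 (F x) ∧ ContDiffAt ℝ ∞ J (F x) := by
    intro x hx
    obtain ⟨k, hk, hkl, hkr, hk0⟩ := exists_local_inv (n := ∞) (by simp) (hF x hx) (hF' x hx)
    have hkU : ∀ᶠ w in 𝓝 (F x), k w ∈ U := by
      have h1 : Tendsto k (𝓝 (F x)) (𝓝 x) := by
        have := hk.continuousAt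
        unfold ContinuousAt at this
        rwa [hk0] at this
      exact h1.eventually (hU.mem_nhds hx)
    refine ⟨?_, ?_⟩
    · filter_upwards [hkr, hkU] with w h1 h2
      exact ⟨k w, h2, h1⟩
    · have h3 : J =ᶠ[𝓝 (F x)] k := by
        filter_upwards [hkr, hkU] with w h1 h2
        have := hJl (k w) h2
        rwa [h1] at this
      exact hk.congr_of_eventuallyEq h3
  have hopen : IsOpen (F '' U) := by
    rw [isOpen_iff_mem_nhds]
    rintro _ ⟨x, hx, rfl⟩
    exact (hloc x hx).1
  set g : E → ℝ := (F '' U).indicator (fun w => φ (J w) * |D (J w)|⁻¹) with hg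
  have hgF : ∀ x ∈ U, g (F x) = φ x * |D x|⁻¹ := by
    intro x hx
    rw [hg, indicator_of_mem (mem_image_of_mem F hx), hJl x hx]
  have hFc : ContinuousOn F (tsupport φ) := fun x hx =>
    (hF x (hφU hx)).continuousAt.continuousWithinAt
  have hKc : IsCompact (F '' tsupport φ) := IsCompact.image_of_continuousOn hφc hFc
  have hg0 : ∀ w, w ∉ F '' tsupport φ → g w = 0 := by
    intro w hw
    by_cases hwU : w ∈ F '' U
    · obtain ⟨x, hx, rfl⟩ := hwU
      rw [hgF x hx]
      have : x ∉ tsupport φ := fun h => hw (mem_image_of_mem F h)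
      rw [image_eq_zero_of_notMem_tsupport this, zero_mul]
    · rw [hg, indicator_of_notMem hwU]
  refine ⟨g, ?_, ?_, ?_, ?_⟩
  · rw [contDiff_iff_contDiffAt]
    intro w
    by_cases hw : w ∈ F '' tsupport φ
    · obtain ⟨x, hx, rfl⟩ := hw
      have hxU := hφU hx
      have hev : g =ᶠ[𝓝 (F x)] fun w => φ (J w) * |D (J w)|⁻¹ := by
        filter_upwards [(hloc x hxU).1] with w hw
        rw [hg, indicator_of_mem hw]
      refine ContDiffAt.congr_of_eventuallyEq ?_ hev
      have hJs := (hloc x hxU).2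
      have hJx : J (F x) = x := hJl x hxU
      have h1 : ContDiffAt ℝ ∞ (fun w => D (J w)) (F x) := by
        have hDx : ContDiffAt ℝ ∞ D (J (F x)) := by
          rw [hJx]
          exact hDs x hxU
        exact ContDiffAt.comp (g := D) (f := J) (F x) hDx hJs
      have hne : D (J (F x)) ≠ 0 := by rw [hJx]; exact hDne x hxU
      have h2 : ContDiffAt ℝ ∞ (fun w => |D (J w)|⁻¹) (F x) :=
        (h1.abs hne).inv (abs_ne_zero.2 hne)
      exact (ContDiffAt.comp (F x) hφ.contDiffAt hJs).mul h2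
    · have hev : g =ᶠ[𝓝 w] fun _ => (0 : ℝ) := by
        filter_upwards [hKc.isClosed.isOpen_compl.mem_nhds hw] with w' hw'
        exact hg0 w' hw'
      exact contDiffAt_const.congr_of_eventuallyEq hev
  · exact HasCompactSupport.intro hKc fun w hw => hg0 w hw
  · intro w
    rw [hg]
    refine indicator_nonneg (fun w _ => ?_) w
    exact mul_nonneg (hφ0 _) (inv_nonneg.2 (abs_nonneg _))
  · intro t ht
    have hUm : MeasurableSet U := hU.measurableSet
    have hpm : MeasurableSet (F ⁻¹' t) := hFm ht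
    have hsm : MeasurableSet (U ∩ F ⁻¹' t) := hUm.inter hpm
    have himg : F '' (U ∩ F ⁻¹' t) = F '' U ∩ t := image_inter_preimage F U t
    have e1 : ∫⁻ x in t, ENNReal.ofReal (g x) ∂μ = ∫⁻ x in F '' (U ∩ F ⁻¹' t),
        ENNReal.ofReal (g x) ∂μ := by
      rw [himg, ← setLIntegral_indicator hopen.measurableSet]
      refine lintegral_congr fun w => ?_
      by_cases hw : w ∈ F '' U
      · rw [indicator_of_mem hw]
      · rw [indicator_of_notMem hw, hg, indicator_of_notMem hw, ENNReal.ofReal_zero]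
    have e2 := lintegral_image_eq_lintegral_abs_det_fderiv_mul μ hsm
      (f := F) (f' := fderiv ℝ F)
      (fun x hx => (((hF x hx.1).differentiableAt (by simp)).hasFDerivAt).hasFDerivWithinAt)
      (hinj.mono inter_subset_left) (fun w => ENNReal.ofReal (g w))
    rw [e1, e2]
    have e3 : ∫⁻ x in U ∩ F ⁻¹' t, ENNReal.ofReal |(fderiv ℝ F x).det| * ENNReal.ofReal (g (F x)) ∂μ
        = ∫⁻ x in U ∩ F ⁻¹' t, ENNReal.ofReal (φ x) ∂μ := by
      refine setLIntegral_congr_fun hsm fun x hx => ?_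
      rw [hgF x hx.1, ← ENNReal.ofReal_mul (abs_nonneg _)]
      congr 1
      have : |D x| ≠ 0 := abs_ne_zero.2 (hDne x hx.1)
      show |D x| * (φ x * |D x|⁻¹) = φ x
      field_simp
    rw [e3, withDensity_apply _ hpm, ← setLIntegral_indicator hUm]
    refine lintegral_congr fun x => ?_
    by_cases hx : x ∈ U
    · rw [indicator_of_mem hx]
    · rw [indicator_of_notMem hx]
      have : x ∉ tsupport φ := fun h => hx (hφU h)
      rw [image_eq_zero_of_notMem_tsupport this, ENNReal.ofReal_zero]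

end Push

end Vale.Agent.P121.H414
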