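import Vale.Agent.P121.Bdl.B1
import Mathlib.Analysis.Calculus.InverseFunctionTheorem.ContDiff

set_option linter.all false

open Set Filter Topology Metric
open scoped RealInnerProductSpace NNReal ContDiff

namespace Vale.Agent.P121.H414

section GenCalc

/-- a function that increases distances up to a factor has injective derivative -/
lemma fderiv_inj {X Y : Type*} [NormedAddCommGroup X] [NormedSpace ℝ X] [NormedAddCommGroup Y]
    [NormedSpace ℝ Y] {f : X → Y} {U : Set X} (hU : IsOpen U) {K : ℝ}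
    (hK : ∀ y ∈ U, ∀ z ∈ U, ‖y - z‖ ≤ K * ‖f y - f z‖) {x : X} (hx : x ∈ U) {f' : X →L[ℝ] Y}
    (hf : HasFDerivAt f f' x) : ∀ v, ‖v‖ ≤ K * ‖f' v‖ := by
  intro v
  have h1 : Tendsto (fun t : ℝ => x + t⁻¹ • v) atTop (𝓝 x) := by
    have h2 : Tendsto (fun t : ℝ => x + t⁻¹ • v) atTop (𝓝 (x + (0 : ℝ) • v)) :=
      tendsto_const_nhds.add (tendsto_inv_atTop_zero.smul_const v)
    simpa using h2
  have h2 : ∀ᶠ t : ℝ in atTop, x + t⁻¹ • v ∈ U := h1.eventually (hU.mem_nhds hx)
  have h3 : Tendsto (fun t : ℝ => t • (f (x + t⁻¹ • v) - f x)) atTop (𝓝 (f' v)) := by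
    have := hf.lim v (c := fun t : ℝ => t) (l := atTop) tendsto_norm_atTop_atTop
    exact this
  have h4 : Tendsto (fun t : ℝ => K * ‖t • (f (x + t⁻¹ • v) - f x)‖) atTop (𝓝 (K * ‖f' v‖)) :=
    (h3.norm).const_mul K
  refine ge_of_tendsto h4 ?_
  filter_upwards [h2, eventually_gt_atTop 0] with t ht ht0
  have h5 := hK _ ht _ hx
  rw [add_sub_cancel_left, norm_smul, norm_inv, Real.norm_of_nonneg ht0.le] at h5
  rw [norm_smul, Real.norm_of_nonneg ht0.le]
  have h6 : ‖v‖ = t * (t⁻¹ * ‖v‖) := by
    rw [← mul_assoc, mul_inv_cancel₀ ht0.ne', one_mul]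
  rw [h6]
  calc t * (t⁻¹ * ‖v‖) ≤ t * (K * ‖f (x + t⁻¹ • v) - f x‖) := by gcongr
    _ = K * (t * ‖f (x + t⁻¹ • v) - f x‖) := by ring

/-- local inverse of a smooth map with injective derivative -/
lemma exists_local_inv {X : Type*} [NormedAddCommGroup X] [NormedSpace ℝ X]
    [FiniteDimensional ℝ X] {n : WithTop ℕ∞} (hn : n ≠ 0) {f : X → X} {x : X}
    (hf : ContDiffAt ℝ n f x) (hinj : ∀ v, fderiv ℝ f x v = 0 → v = 0) :
    ∃ g : X → X, ContDiffAt ℝ n g (f x) ∧ (∀ᶠ z in 𝓝 x, g (f z) = z) ∧
      (∀ᶠ w in 𝓝 (f x), f (g w) = w) ∧ g (f x) = x := by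
  have hcs : CompleteSpace X := FiniteDimensional.complete ℝ X
  have hker : LinearMap.ker ((fderiv ℝ f x : X →L[ℝ] X) : X →ₗ[ℝ] X) = ⊥ := by
    rw [LinearMap.ker_eq_bot']
    exact hinj
  have hrange : LinearMap.range ((fderiv ℝ f x : X →L[ℝ] X) : X →ₗ[ℝ] X) = ⊤ :=
    LinearMap.ker_eq_bot_iff_range_eq_top.1 hker
  let f' : X ≃L[ℝ] X := ContinuousLinearEquiv.ofBijective (fderiv ℝ f x) hker hrange
  have hf' : HasFDerivAt f (f' : X →L[ℝ] X) x := by
    have h1 : (f' : X →L[ℝ] X) = fderiv ℝ f x := by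
      ext v
      rfl
    rw [h1]
    exact (hf.differentiableAt hn).hasFDerivAt
  have hst : HasStrictFDerivAt f (f' : X →L[ℝ] X) x := hf.hasStrictFDerivAt' hf' hn
  refine ⟨hf.localInverse hf' hn, hf.to_localInverse hf' hn, ?_, ?_, ?_⟩
  · exact hst.eventually_left_inverse
  · exact hst.eventually_right_inverse
  · exact hst.localInverse_apply_image

end GenCalc

section Omega

variable {E : Type*} [NormedAddCommGroup E] [InnerProductSpace ℝ E]

lemma cdo_G {x : E} (hx : x ≠ 0) : ContDiffAt ℝ ω (G : E → E) x := by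
  unfold G
  have h1 : ContDiffAt ℝ ω (fun x : E => ‖x‖ ^ 3) x := (contDiffAt_norm ℝ hx).pow 3
  exact (h1.inv (by simpa using hx)).smul contDiffAt_id

variable {N : ℕ}

lemma cdo_apply (j : Fin N) (s : Fin N → E) : ContDiffAt ℝ ω (fun f : Fin N → E => f j) s :=
  (contDiff_apply ℝ E j).contDiffAt

lemma cdo_force {s : Fin N → E} (hs : Function.Injective s) :
    ContDiffAt ℝ ω (fun x : Fin N → E => force x) s := by
  rw [contDiffAt_pi]
  intro i
  unfold force
  refine ContDiffAt.sum fun j _ => ?_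
  by_cases hij : j = i
  · subst hij
    simp only [sub_self, G_zero]
    exact contDiffAt_const
  · have h1 : ContDiffAt ℝ ω (G : E → E) (s j - s i) :=
      cdo_G (sub_ne_zero.2 (fun h => hij (hs h)))
    exact ContDiffAt.comp s h1 ((cdo_apply j s).sub (cdo_apply i s))

/-- the system of critical equations, together with the field at particle `o` -/
noncomputable def Th (p : ℝ) (s : Fin N → E) (o l : Fin N) (z : Fin N → E) (i : Fin N) : E :=
  if i = l then force z o else force z i + p • (z i - s i)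

lemma cdo_Th (p : ℝ) (s : Fin N → E) (o l : Fin N) {z : Fin N → E} (hz : Function.Injective z) :
    ContDiffAt ℝ ω (Th p s o l) z := by
  have hfo := cdo_force hz
  rw [contDiffAt_pi] at hfo ⊢
  intro i
  by_cases hi : i = l
  · have : (fun z : Fin N → E => Th p s o l z i) = fun z => force z o := by
      funext z
      unfold Th
      rw [if_pos hi]
    rw [this]
    exact hfo o
  · have : (fun z : Fin N → E => Th p s o l z i) = fun z => force z i + p • (z i - s i) := by
      funext z
      unfold Th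
      rw [if_neg hi]
    rw [this]
    exact (hfo i).add (contDiffAt_const.smul ((cdo_apply i z).sub contDiffAt_const))

/-- `Th` increases distances near the reference configuration -/
lemma exists_antilip {s : Fin N → E} (hs : Function.Injective s) {o l : Fin N} (hol : o ≠ l) :
    ∃ ρ > 0, ∃ P > 0, ∃ K > 0, ∀ p ≥ P, ∀ z ∈ ball s ρ, ∀ z' ∈ ball s ρ,
      ‖z - z'‖ ≤ K * ‖Th p s o l z - Th p s o l z'‖ := by
  obtain ⟨K₁, hK₁, ρ₁, hρ₁, h₁⟩ := exists_lip (contDiffAt_force hs)
  obtain ⟨K₂, hK₂, ρ₂, hρ₂, h₂⟩ := exists_lip (contDiffAt_chi hs hol)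
  set K : ℝ := max 1 (max K₁ K₂) with hK
  have hK1 : 1 ≤ K := le_max_left _ _
  have hKK₁ : K₁ ≤ K := (le_max_left _ _).trans (le_max_right _ _)
  have hKK₂ : K₂ ≤ K := (le_max_right _ _).trans (le_max_right _ _)
  have hK0 : 0 < K := by linarith only [hK1]
  set ρ₀ : ℝ := min ρ₁ ρ₂ with hρ₀
  have hρ₀0 : 0 < ρ₀ := lt_min hρ₁ hρ₂
  have hρK : ρ₀ / K ≤ ρ₀ := by
    rw [div_le_iff₀ hK0]
    nlinarith only [hK1, hρ₀0]
  refine ⟨ρ₀ / K, by positivity, 2 * K ^ 2, by positivity, K, hK0, ?_⟩
  intro p hp z hz z' hz'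
  have hsρ : s ∈ closedBall s ρ₁ := mem_closedBall_self hρ₁.le
  have L₁ : ∀ u ∈ ball s (ρ₀ / K), ∀ v ∈ ball s (ρ₀ / K), ‖force u - force v‖ ≤ K * ‖u - v‖ := by
    intro u hu v hv
    have hu' : u ∈ closedBall s ρ₁ := by
      rw [mem_closedBall]
      rw [mem_ball] at hu
      have : ρ₀ ≤ ρ₁ := min_le_left _ _
      linarith only [hu, this, hρK]
    have hv' : v ∈ closedBall s ρ₁ := by
      rw [mem_closedBall]
      rw [mem_ball] at hv
      have : ρ₀ ≤ ρ₁ := min_le_left _ _
      linarith only [hv, this, hρK]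
    exact (h₁ u hu' v hv').trans (by gcongr)
  have hsb : s ∈ ball s (ρ₀ / K) := mem_ball_self (by positivity)
  -- the configuration with the position of particle `l` replaced
  have key : ∀ u ∈ ball s (ρ₀ / K), ∀ v ∈ ball s (ρ₀ / K),
      ‖u l - v l‖ ≤ K * ‖((Function.update u l (s l), force u o) : (Fin N → E) × E) -
        (Function.update v l (s l), force v o)‖ := by
    have hmem : ∀ u ∈ ball s (ρ₀ / K), ((Function.update u l (s l), force u o) :
        (Fin N → E) × E) ∈ closedBall (s, force s o) ρ₂ := by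
      intro u hu
      rw [mem_closedBall, Prod.dist_eq]
      refine max_le ?_ ?_
      · simp only
        rw [dist_pi_le_iff hρ₂.le]
        intro i
        by_cases hi : i = l
        · subst hi
          rw [Function.update_self, dist_self]
          exact hρ₂.le
        · rw [Function.update_of_ne hi]
          have h1 := dist_le_pi_dist u s i
          rw [mem_ball] at hu
          have : ρ₀ ≤ ρ₂ := min_le_right _ _
          linarith only [hu, h1, this, hρK]
      · simp only
        rw [dist_eq_norm]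
        have e1 := norm_le_pi_norm (force u - force s) o
        rw [Pi.sub_apply] at e1
        have e2 := L₁ u hu s hsb
        rw [mem_ball, dist_eq_norm] at hu
        have e3 : K * ‖u - s‖ ≤ K * (ρ₀ / K) := by gcongr
        have e4 : K * (ρ₀ / K) = ρ₀ := by field_simp
        have : ρ₀ ≤ ρ₂ := min_le_right _ _
        linarith only [e1, e2, e3, e4, this]
    intro u hu v hv
    have h3 := h₂ _ (hmem u hu) _ (hmem v hv)
    have hc : ∀ u : Fin N → E, chi l o (Function.update u l (s l)) (force u o) = u l := by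
      intro u
      refine chi_force _ (fun j hj => ?_) hol
      rw [Function.update_of_ne hj]
    simp only [hc] at h3
    exact h3.trans (by gcongr)
  set T := ‖Th p s o l z - Th p s o l z'‖ with hT
  have hT0 : 0 ≤ T := norm_nonneg _
  have hp0 : 0 < p := lt_of_lt_of_le (by positivity) hp
  have hZ0 : 0 ≤ ‖z - z'‖ := norm_nonneg _
  have hTl : ‖force z o - force z' o‖ ≤ T := by
    have := norm_le_pi_norm (Th p s o l z - Th p s o l z') l
    rw [Pi.sub_apply] at this
    unfold Th at this
    rw [if_pos rfl, if_pos rfl] at this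
    exact this
  have hi : ∀ i, i ≠ l → p * ‖z i - z' i‖ ≤ T + K * ‖z - z'‖ := by
    intro i hi
    have h1 := norm_le_pi_norm (Th p s o l z - Th p s o l z') i
    rw [Pi.sub_apply] at h1
    unfold Th at h1
    rw [if_neg hi, if_neg hi] at h1
    have h2 := norm_le_pi_norm (force z - force z') i
    rw [Pi.sub_apply] at h2
    have h3 := L₁ z hz z' hz'
    have e : p • (z i - z' i) = (force z i + p • (z i - s i) - (force z' i + p • (z' i - s i))) -
        (force z i - force z' i) := by
      simp only [smul_sub]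
      abel
    have h4 : ‖p • (z i - z' i)‖ = p * ‖z i - z' i‖ := by
      rw [norm_smul, Real.norm_of_nonneg hp0.le]
    rw [← h4, e]
    refine (norm_sub_le _ _).trans ?_
    have h5 : ‖force z i + p • (z i - s i) - (force z' i + p • (z' i - s i))‖ ≤ T := h1
    linarith only [h5, h2, h3]
  have hi' : ∀ i, i ≠ l → ‖z i - z' i‖ ≤ (T + K * ‖z - z'‖) / p := by
    intro i hil
    rw [le_div_iff₀ hp0, mul_comm]
    exact hi i hil
  have hBnn : 0 ≤ (T + K * ‖z - z'‖) / p := by positivity
  have hl : ‖z l - z' l‖ ≤ K * max ((T + K * ‖z - z'‖) / p) T := by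
    refine (key z hz z' hz').trans ?_
    gcongr
    rw [Prod.mk_sub_mk, Prod.norm_def]
    refine max_le_max ?_ hTl
    simp only
    rw [pi_norm_le_iff_of_nonneg hBnn]
    intro i
    rw [Pi.sub_apply]
    by_cases hil : i = l
    · subst hil
      rw [Function.update_self, Function.update_self, sub_self, norm_zero]
      exact hBnn
    · rw [Function.update_of_ne hil, Function.update_of_ne hil]
      exact hi' i hil
  have hall : ‖z - z'‖ ≤ K * max ((T + K * ‖z - z'‖) / p) T := by
    have hnn : 0 ≤ K * max ((T + K * ‖z - z'‖) / p) T :=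
      mul_nonneg hK0.le (le_max_of_le_right hT0)
    rw [pi_norm_le_iff_of_nonneg hnn]
    intro i
    rw [Pi.sub_apply]
    by_cases hil : i = l
    · subst hil
      exact hl
    · refine (hi' i hil).trans ?_
      have h1 : (T + K * ‖z - z'‖) / p ≤ max ((T + K * ‖z - z'‖) / p) T := le_max_left _ _
      have h2 : 0 ≤ max ((T + K * ‖z - z'‖) / p) T := le_max_of_le_right hT0
      nlinarith only [h1, h2, hK1]
  rcases le_total ((T + K * ‖z - z'‖) / p) T with hle | hle
  · rwa [max_eq_right hle] at hall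
  · rw [max_eq_left hle] at hall
    have h1 : p * ‖z - z'‖ ≤ K * (T + K * ‖z - z'‖) := by
      calc p * ‖z - z'‖ ≤ p * (K * ((T + K * ‖z - z'‖) / p)) := by gcongr
        _ = K * (T + K * ‖z - z'‖) := by field_simp
    have h2 : 2 * K ^ 2 * ‖z - z'‖ ≤ p * ‖z - z'‖ := by gcongr
    have h3 : K * (K * ‖z - z'‖) ≤ K * T := by nlinarith only [h1, h2]
    have h4 : K * ‖z - z'‖ ≤ T := le_of_mul_le_mul_left h3 hK0
    nlinarith only [h4, hK1, hZ0, hT0]

/-- smoothness of the contact family -/
lemma smooth_family [FiniteDimensional ℝ E] {s : Fin N → E} {o l : Fin N}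
    {ρ K p : ℝ} (hK : ∀ z ∈ ball s ρ, ∀ z' ∈ ball s ρ,
      ‖z - z'‖ ≤ K * ‖Th p s o l z - Th p s o l z'‖) (hol : o ≠ l)
    {δ : ℝ} {x : E → Fin N → E} {h : Fin N → E} {a₀ : E}
    (hcont : ContinuousOn x (closedBall a₀ δ))
    (hinj : ∀ a ∈ closedBall a₀ δ, Function.Injective (x a))
    (hball : ∀ a ∈ closedBall a₀ δ, x a ∈ ball s ρ)
    (hcrit : ∀ a ∈ closedBall a₀ δ, ∀ i, i ≠ l → force (x a) i = h i - p • (x a i - s i))
    (hxo : ∀ a ∈ closedBall a₀ δ, x a o = a) :
    ∀ a ∈ ball a₀ δ, ContDiffAt ℝ ω x a := by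
  intro a ha
  have hac : a ∈ closedBall a₀ δ := ball_subset_closedBall ha
  have hTh := cdo_Th p s o l (hinj a hac)
  have hder : HasFDerivAt (Th p s o l) (fderiv ℝ (Th p s o l) (x a)) (x a) :=
    (hTh.differentiableAt (by simp)).hasFDerivAt
  have hinj' : ∀ v, fderiv ℝ (Th p s o l) (x a) v = 0 → v = 0 := by
    intro v hv
    have h1 := fderiv_inj isOpen_ball hK (hball a hac) hder v
    rw [hv, norm_zero, mul_zero] at h1
    exact norm_le_zero_iff.1 h1
  obtain ⟨g, hg, hgl, -, -⟩ := exists_local_inv (n := ω) (by simp) hTh hinj'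
  -- the affine right hand side
  set A : E → Fin N → E := fun a i => if i = l then h o - p • (a - s o) else h i with hA
  have hThx : ∀ a ∈ closedBall a₀ δ, Th p s o l (x a) = A a := by
    intro a ha
    funext i
    simp only [Th, hA]
    by_cases hi : i = l
    · rw [if_pos hi, if_pos hi, hcrit a ha o hol, hxo a ha]
    · rw [if_neg hi, if_neg hi, hcrit a ha i hi]
      abel
  have hAs : ContDiff ℝ ω A := by
    rw [contDiff_pi]
    intro i
    simp only [hA]
    by_cases hi : i = l
    · simp only [if_pos hi]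
      exact contDiff_const.sub (contDiff_const.smul (contDiff_id.sub contDiff_const))
    · simp only [if_neg hi]
      exact contDiff_const
  have hxat : ContinuousAt x a := hcont.continuousAt (closedBall_mem_nhds_of_mem ha)
  have hev : x =ᶠ[𝓝 a] fun a' => g (A a') := by
    have h1 := hxat.eventually hgl
    have h2 : ∀ᶠ a' in 𝓝 a, a' ∈ closedBall a₀ δ := closedBall_mem_nhds_of_mem ha
    filter_upwards [h1, h2] with a' h1 h2
    rw [← hThx a' h2, h1]
  refine ContDiffAt.congr_of_eventuallyEq ?_ hev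
  have h3 : ContDiffAt ℝ ω g (A a) := by
    rw [← hThx a hac]
    exact hg
  exact ContDiffAt.comp a h3 hAs.contDiffAt

end Omega

end Vale.Agent.P121.H414
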